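import Vale.Agent.P043.MathlibUsed

namespace Vale.Agent.P043

/-- `A ⊕ F = G`: every `g` is `a + f` for exactly one pair `(a, f)` with `a ∈ A`, `f ∈ F`. -/
def IsTiling {G : Type} [AddCommGroup G] (A : Set G) (F : Finset G) : Prop :=
  ∀ g : G, ∃! p : G × G, p.1 ∈ A ∧ p.2 ∈ F ∧ p.1 + p.2 = g

/-- `A + h = A` for every `h` in some subgroup of finite index. -/
def IsPeriodic {G : Type} [AddCommGroup G] (A : Set G) : Prop :=
  ∃ L : AddSubgroup G, L.FiniteIndex ∧ ∀ h ∈ L, (fun a => a + h) '' A = A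

end Vale.Agent.P043
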