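import Mathlib.Algebra.AffineMonoid.Basic
import Mathlib.Algebra.Module.ZLattice.Basic
import Mathlib.Algebra.Order.Quantale
import Mathlib.Algebra.Order.Ring.Star
import Mathlib.Computability.Reduce
import Mathlib.Data.Int.Star
import Mathlib.Data.Nat.ChineseRemainder
import Mathlib.Data.Pi.Interval
import Mathlib.Dynamics.Ergodic.Action.Regular
import Mathlib.GroupTheory.FiniteAbelian.Basic
import Mathlib.LinearAlgebra.Complex.FiniteDimensional
import Mathlib.NumberTheory.Fermat
import Mathlib.NumberTheory.PrimeCounting
import Mathlib.Order.CompletePartialOrder
import Mathlib.RingTheory.PicardGroup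
import Mathlib.RingTheory.RegularLocalRing.Defs
import Mathlib.Tactic
import Mathlib.Topology.Algebra.ProperAction.Basic

/-! The part of Mathlib that the development of this folder uses. -/
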